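import Vale.Agent.P057.Defs

/-!
# P057: choice of multipliers, of the shift of the window and of the translation
-/

namespace Vale.P057

open Finset

theorem exists_multipliers {d E R Q U c : ℕ} [hQ : Fact Q.Prime] (hE : 0 < E)
    (hER : E * R ≤ Q) (hR : 2 * U * 3 ^ d < R ^ d) (hUQ : U < Q) (hc : (c : ZMod Q) ≠ 0) :
    ∃ a : Fin d → ZMod Q, ∀ u : ℤ, u ≠ 0 → |u| ≤ U →
      ∃ i, ∀ n : ℤ, (E : ℤ) < |(c : ℤ) * ((a i).val * u) - n * Q| := by
  classical
  let small : Finset (ZMod Q) := Finset.image (fun t : ℤ => (t : ZMod Q)) (Icc (-(E : ℤ)) (E : ℤ))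
  let us : Finset ℤ := (Icc (-(U : ℤ)) U).erase 0
  let bad : ℤ → Finset (Fin d → ZMod Q) := fun u =>
    Fintype.piFinset fun _ => univ.filter fun x : ZMod Q => (c : ZMod Q) * (x * u) ∈ small
  have hus : us.card = 2 * U := by
    have h0 : (0 : ℤ) ∈ Icc (-(U : ℤ)) U := mem_Icc.2 ⟨by omega, by omega⟩
    rw [card_erase_of_mem h0, Int.card_Icc]
    omega
  have hbad : ∀ u ∈ us, (bad u).card ≤ (3 * E) ^ d := fun u hu => by
    obtain ⟨hu0, hu⟩ := mem_erase.1 hu
    obtain ⟨hu1, hu2⟩ := mem_Icc.1 hu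
    have hne : (u : ZMod Q) ≠ 0 := fun h => by
      rw [ZMod.intCast_zmod_eq_zero_iff_dvd] at h
      exact hu0 (Int.eq_zero_of_abs_lt_dvd h (abs_lt.2 ⟨by omega, by omega⟩))
    rw [Fintype.card_piFinset, prod_const, card_univ, Fintype.card_fin]
    refine Nat.pow_le_pow_left ?_ d
    calc _ ≤ small.card := by
          refine card_le_card_of_injOn (fun x : ZMod Q => (c : ZMod Q) * (x * u))
            (fun x hx => (mem_filter.1 (mem_coe.1 hx)).2) fun x _ x' _ h => ?_
          exact mul_right_cancel₀ hne (mul_left_cancel₀ hc h)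
      _ ≤ (Icc (-(E : ℤ)) E).card := card_image_le
      _ ≤ 3 * E := by rw [Int.card_Icc]; omega
  have hlt : (us.biUnion bad).card < Fintype.card (Fin d → ZMod Q) := by
    rw [Fintype.card_fun, ZMod.card, Fintype.card_fin]
    calc (us.biUnion bad).card ≤ ∑ u ∈ us, (bad u).card := card_biUnion_le
      _ ≤ us.card * (3 * E) ^ d := by simpa using sum_le_card_nsmul us _ _ hbad
      _ = 2 * U * 3 ^ d * E ^ d := by rw [hus]; ring
      _ < R ^ d * E ^ d := mul_lt_mul_of_pos_right hR (by positivity)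
      _ = (E * R) ^ d := by rw [mul_pow, mul_comm]
      _ ≤ Q ^ d := Nat.pow_le_pow_left hER d
  obtain ⟨a, -, ha⟩ := exists_mem_notMem_of_card_lt_card (s := us.biUnion bad)
    (t := (univ : Finset (Fin d → ZMod Q))) (by rwa [card_univ])
  refine ⟨a, fun u hu hU => ?_⟩
  by_contra hno
  push Not at hno
  refine ha (mem_biUnion.2 ⟨u, mem_erase.2 ⟨hu, mem_Icc.2 (abs_le.1 hU)⟩,
    Fintype.mem_piFinset.2 fun i => mem_filter.2 ⟨mem_univ _, ?_⟩⟩)
  obtain ⟨n, hn⟩ := hno i
  refine mem_image.2 ⟨(c : ℤ) * ((a i).val * u) - n * Q, mem_Icc.2 (abs_le.1 hn), ?_⟩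
  push_cast [ZMod.natCast_self, ZMod.natCast_zmod_val]
  ring

/-- The membership predicate of the union of windows. -/
def InWin (A' : Finset ℕ) (w w' : ℕ) (t g : ℤ) : Prop :=
  ∃ b ∈ A', 0 ≤ g - t - (w * b : ℕ) ∧ g - t - (w * b : ℕ) < w'

theorem exists_shift {ι : Type*} (S : Finset ι) (g : ι → ℕ) {G M w w' : ℕ} (A' : Finset ℕ)
    (hA' : A' ⊆ range M) (hg : ∀ x ∈ S, g x < G) (hG : G ≤ M * w) (hw' : w' ≤ w) (hMw : 0 < M * w) :
    ∃ t : ℤ, ∃ T ⊆ S, (∀ x ∈ T, InWin A' w w' t (g x)) ∧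
      S.card * (A'.card * w') ≤ 2 * (M * w) * T.card := by
  classical
  let I : Finset ℤ := Ico (-((M * w : ℕ) : ℤ)) G
  have hper : ∀ x ∈ S, A'.card * w' ≤ (I.filter fun t => InWin A' w w' t (g x)).card := by
    intro x hx
    rw [show A'.card * w' = (A' ×ˢ range w').card by rw [card_product, card_range]]
    refine card_le_card_of_injOn (fun p : ℕ × ℕ => (g x : ℤ) - ((w * p.1 : ℕ) : ℤ) - p.2)
      (fun p hp => ?_) fun p hp q hq h => ?_
    · obtain ⟨h1, h2⟩ := mem_product.1 (mem_coe.1 hp)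
      have h3 := mem_range.1 (hA' h1)
      have h4 := mem_range.1 h2
      have h5 : w * (p.1 + 1) ≤ w * M := Nat.mul_le_mul_left w h3
      have h5' := hg x hx
      rw [Nat.mul_succ, mul_comm w M] at h5
      refine mem_coe.2 (mem_filter.2 ⟨mem_Ico.2 ?_, p.1, h1, ?_, ?_⟩) <;> beta_reduce <;> omega
    · have hp2 := mem_range.1 (mem_product.1 (mem_coe.1 hp)).2
      have hq2 := mem_range.1 (mem_product.1 (mem_coe.1 hq)).2
      have e : w * p.1 + p.2 = w * q.1 + q.2 := by simp only at h; omega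
      have h1 : p.1 = q.1 := by
        rcases lt_trichotomy p.1 q.1 with hlt | he | hlt
        · have := Nat.mul_le_mul_left w hlt; rw [Nat.mul_succ] at this; omega
        · exact he
        · have := Nat.mul_le_mul_left w hlt; rw [Nat.mul_succ] at this; omega
      exact Prod.ext h1 (by rw [h1] at e; omega)
  have hI : I.card ≤ 2 * (M * w) := by
    rw [Int.card_Ico]
    omega
  have hsum : S.card * (A'.card * w') ≤ ∑ t ∈ I, (S.filter fun x => InWin A' w w' t (g x)).card := by
    calc S.card * (A'.card * w') ≤ ∑ x ∈ S, (I.filter fun t => InWin A' w w' t (g x)).card := by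
          simpa using card_nsmul_le_sum S _ _ hper
      _ = _ := by simp only [card_filter]; exact sum_comm
  have hIne : I.Nonempty := nonempty_Ico.2 (by omega)
  obtain ⟨t, -, ht⟩ := exists_max_image I (fun t => (S.filter fun x => InWin A' w w' t (g x)).card)
    hIne
  exact ⟨t, _, filter_subset _ _, fun x hx => (mem_filter.1 hx).2,
    hsum.trans ((sum_le_card_nsmul I _ _ ht).trans (Nat.mul_le_mul_right _ hI))⟩

theorem exists_translate {d Q : ℕ} [NeZero Q] (S : Finset (Fin d → ZMod Q)) (a : Fin d → ZMod Q)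
    (N : ℕ) : ∃ φ : Fin d → ZMod Q,
      N * S.card ≤ Q ^ d * ((range N).filter fun z : ℕ =>
        (fun i => φ i + a i * (z : ZMod Q)) ∈ S).card := by
  classical
  let F : (Fin d → ZMod Q) → ℕ := fun φ =>
    ((range N).filter fun z : ℕ => (fun i => φ i + a i * (z : ZMod Q)) ∈ S).card
  have hsum : ∑ φ, F φ = N * S.card := by
    simp only [F, card_filter]
    rw [sum_comm]
    have : ∀ z ∈ range N, (∑ φ : Fin d → ZMod Q,
        if (fun i => φ i + a i * (z : ZMod Q)) ∈ S then 1 else 0) = S.card := by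
      intro z _
      have h := Equiv.sum_comp (Equiv.addRight fun i => a i * (z : ZMod Q))
        (fun x : Fin d → ZMod Q => if x ∈ S then (1 : ℕ) else 0)
      simp only [Equiv.coe_addRight] at h
      refine h.trans ?_
      simp
    rw [sum_congr rfl this, sum_const, card_range, smul_eq_mul]
  obtain ⟨φ, -, hφ⟩ := exists_max_image (univ : Finset (Fin d → ZMod Q)) F univ_nonempty
  refine ⟨φ, hsum ▸ (sum_le_card_nsmul univ F _ hφ).trans (le_of_eq ?_)⟩
  rw [card_univ, Fintype.card_fun, ZMod.card, Fintype.card_fin, smul_eq_mul]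

end Vale.P057
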