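import Vale.Agent.P057.Comb.Quad

/-!
# P057: a progression of kept points forces a large top difference of the sum of squares
-/

namespace Vale.P057

open Finset

/-- The box parameter: half the norm of the operator that must not wrap around. -/
def boxH (D m : ℕ) : ℕ := if m = 0 then 2 ^ D else (D + 1).choose ((D + 1) / 2)

theorem dd_pl_const {G : Type*} [AddCommGroup G] (c : G) (n t : ℕ) :
    (fwdDiff 1)^[n + 1] (pl^[t] fun _ : ℕ => c) = 0 := by
  rw [pl_dd, Function.iterate_succ_apply, fwdDiff_const,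
    show (fwdDiff 1)^[n] (fun _ : ℕ => (0 : G)) = 0 from
      dd_eq_zero_of_le (Nat.zero_le n) rfl]
  exact pl_zero t

theorem two_dd (f : ℕ → ℤ) (c : ℤ) (n t j : ℕ) :
    (fwdDiff 1)^[n + 1] (pl^[t] fun i => 2 * f i - c) j
      = 2 * (fwdDiff 1)^[n + 1] (pl^[t] f) j := by
  have e : (fun i => 2 * f i - c)
      = (fun i => AddMonoidHom.mulLeft (2 : ℤ) (f i)) + fun _ => -c := funext fun i => by
    simp [sub_eq_add_neg]
  rw [e, pl_add, dd_add, dd_pl_const, add_zero, map_pl, map_dd]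
  rfl

theorem no_wrap {D m B Q : ℕ} (hm : m ≤ 1) (hQ : 0 < Q) (hB : boxH D m * B ≤ Q) (hB0 : 0 < B)
    (f : ℕ → ℤ) (j : ℕ) (hf : ∀ i, i ≤ D + 1 + m → 0 ≤ f (j + i) ∧ f (j + i) < B)
    (hdvd : (Q : ℤ) ∣ (fwdDiff 1)^[D + 1] (pl^[m] f) j) :
    (fwdDiff 1)^[D + 1] (pl^[m] f) j = 0 := by
  refine Int.eq_zero_of_abs_lt_dvd hdvd ?_
  have hM : ∀ i, i ≤ D + 1 + m → |2 * f (j + i) - ((B : ℤ) - 1)| ≤ (B : ℤ) - 1 := fun i hi => by
    have := hf i hi
    rw [abs_le]
    omega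
  have key : |2 * (fwdDiff 1)^[D + 1] (pl^[m] f) j| ≤ 2 * (boxH D m : ℤ) * ((B : ℤ) - 1) := by
    rw [← two_dd f ((B : ℤ) - 1)]
    have hm' : m = 0 ∨ m = 1 := by omega
    rcases hm' with rfl | rfl
    · have h := abs_dd_pl (fun i => 2 * f (j + i) - ((B : ℤ) - 1)) ((B : ℤ) - 1) (D + 1) 0 0
        (fun i hi => hM i (by omega)) 0 le_rfl
      simp only [Function.iterate_zero, id_eq] at h ⊢
      have e := fwdDiff_iter_comp_add (1 : ℕ) (fun i => 2 * f i - ((B : ℤ) - 1)) j (D + 1) 0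
      rw [zero_add] at e
      rw [← e]
      simp only [boxH, if_true, add_comm _ j] at h ⊢
      calc _ ≤ _ := h
        _ = _ := by push_cast; ring
    · simpa [boxH] using
        abs_dd_pl_one (fun i => 2 * f i - ((B : ℤ) - 1)) ((B : ℤ) - 1) (D + 1) j hM
  rw [abs_mul, abs_two] at key
  have hh : 0 < boxH D m := by
    unfold boxH
    split_ifs
    · positivity
    · exact Nat.choose_pos (Nat.div_le_self _ _)
  have h1 : ((boxH D m * B : ℕ) : ℤ) ≤ (Q : ℤ) := Int.ofNat_le.2 hB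
  have h2 : (1 : ℤ) ≤ (boxH D m : ℤ) := by exact_mod_cast hh
  push_cast at h1
  nlinarith

/-- A sequence agreeing with `f` on the first `k` values and killed by the operator everywhere. -/
theorem exists_extension {D m k : ℕ} (hm : m ≤ 1) (f : ℕ → ℤ)
    (h : ∀ j, j + (D + 1 + m) < k → (fwdDiff 1)^[D + 1] (pl^[m] f) j = 0) :
    ∃ y : ℕ → ℤ, (fwdDiff 1)^[D + 1] (pl^[m] y) = 0 ∧ ∀ j, j < k → y j = f j := by
  have hm' : m = 0 ∨ m = 1 := by omega
  rcases hm' with rfl | rfl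
  · exact ⟨extend D f, dd_extend D f, fun j hj => extend_eq (fun i hi => h i (by omega)) hj⟩
  · let w := extend D (pl f)
    let y : ℕ → ℤ := fun j => Nat.rec (f 0) (fun i p => w i - p) j
    have hy : pl y = w := funext fun j => by
      show (w j - y j) + y j = w j
      ring
    refine ⟨y, by rw [Function.iterate_one, hy]; exact dd_extend D (pl f), fun j hj => ?_⟩
    induction j with
    | zero => rfl
    | succ j ih =>
      have e : w j = pl f j :=
        extend_eq (k := k - 1) (fun i hi => h i (by omega)) (by omega)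
      show w j - y j = f (j + 1)
      rw [ih (by omega), e]
      simp [pl]

theorem quad_vanish {d D : ℕ} (y : Fin d → ℕ → ℤ) (hy : ∀ i, (fwdDiff 1)^[D + 1] (y i) = 0) :
    (fwdDiff 1)^[2 * D + 1] (fun j => ∑ i, y i j ^ 2) = 0 := by
  set φ : ℤ →+ ℚ := Int.castAddHom ℚ
  have hrep : ∀ i, ∃ P : Polynomial ℚ, P.natDegree ≤ D ∧ ∀ j : ℕ, (y i j : ℚ) = P.eval (j : ℚ) :=
    fun i => exists_poly (by
      rw [show (fun j => (y i j : ℚ)) = fun j => φ (y i j) from rfl, map_dd, hy i]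
      exact funext fun j => by simp)
  choose P hP hP' using hrep
  have hg : (fun j => ((∑ i, y i j ^ 2 : ℤ) : ℚ))
      = fun j : ℕ => (∑ i, P i ^ 2).eval (j : ℚ) := funext fun j => by
    push_cast [Polynomial.eval_finsetSum, Polynomial.eval_pow]
    exact Finset.sum_congr rfl fun i _ => by rw [hP' i j]
  have h := map_dd φ (fun j => ∑ i, y i j ^ 2) (2 * D + 1)
  rw [show (fun j => φ (∑ i, y i j ^ 2)) = fun j => ((∑ i, y i j ^ 2 : ℤ) : ℚ) from rfl, hg,
    dd_eval_zero] at h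
  · exact funext fun j => Int.cast_eq_zero.1 (congrFun h j).symm
  · refine lt_of_le_of_lt (Polynomial.natDegree_sum_le_of_forall_le _ _ fun i _ => ?_)
      (Nat.lt_succ_self _)
    exact Polynomial.natDegree_pow_le.trans (by have := hP i; omega)

/-- The multipliers have no small multiple. -/
def Good {d : ℕ} (m D N Q E : ℕ) (a : Fin d → ℤ) : Prop :=
  ∀ u : ℤ, u ≠ 0 → |u| ≤ 2 ^ D * N → ∃ i, ∀ n : ℤ, (E : ℤ) < |2 ^ m * (a i * u) - n * Q|

/-- **The core.** -/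
theorem core {d D k m B Q E N : ℕ} (hm : m ≤ 1) (hQ : 0 < Q) (hB : boxH D m * B ≤ Q) (hB0 : 0 < B)
    (hk : D + 1 + m ≤ k) (hEQ : E < Q) {a φ : Fin d → ℤ} (ha : Good m D N Q E a) {z : ℕ → ℤ}
    (hz : (fwdDiff 1)^[D + 1] z = 0) (hzne : ¬ ∀ j, z j = z 0)
    (hzN : ∀ j, j < k → 0 ≤ z j ∧ z j < N) (Y : Fin d → ℕ → ℤ)
    (hY : ∀ j, j < k → ∀ i, 0 ≤ Y i j ∧ Y i j < B ∧ (Q : ℤ) ∣ Y i j - φ i - a i * z j) :
    ∃ (y : Fin d → ℕ → ℤ) (s : ℕ), 1 ≤ s ∧ s ≤ D ∧ (∀ i j, j < k → y i j = Y i j) ∧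
      (m = 0 → (fwdDiff 1)^[2 * D + 1] (fun j => ∑ i, y i j ^ 2) = 0) ∧
      (E : ℤ) ^ 2 <
        4 ^ m * (fwdDiff 1)^[2 * s] (pl^[m * (D + 1)] fun j => ∑ i, y i j ^ 2) 0 := by
  classical
  -- congruences
  let ψ : ℤ →+ ZMod Q := Int.castAddHom (ZMod Q)
  have hmod : ∀ i n j, 1 ≤ n → j + (n + m) < k → ∀ f : ℕ → ℤ,
      (∀ l, l < k → f l = Y i l) →
      ((Q : ℤ) ∣ (fwdDiff 1)^[n] (pl^[m] f) j - a i * (fwdDiff 1)^[n] (pl^[m] z) j) := by
    intro i n j hn hj f hf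
    obtain ⟨n', rfl⟩ := Nat.exists_eq_add_of_le' hn
    let e : ℕ → ℤ := f + (fun _ => -φ i) + fun l => AddMonoidHom.mulLeft (-a i) (z l)
    have he : ∀ l, l < k → ψ (e l) = 0 := fun l hl => by
      have h := (hY l hl i).2.2
      rw [← ZMod.intCast_zmod_eq_zero_iff_dvd, ← hf l hl] at h
      refine Eq.trans ?_ h
      show ((e l : ℤ) : ZMod Q) = _
      congr 1
      simp [e]
      ring
    have hval : (fwdDiff 1)^[n' + 1] (pl^[m] e) j
        = (fwdDiff 1)^[n' + 1] (pl^[m] f) j - a i * (fwdDiff 1)^[n' + 1] (pl^[m] z) j := by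
      simp only [e, pl_add, dd_add, dd_pl_const, add_zero, map_pl, map_dd]
      simp [sub_eq_add_neg]
    rw [← hval, ← ZMod.intCast_zmod_eq_zero_iff_dvd]
    have h1 : (fwdDiff 1)^[n' + 1] (pl^[m] fun l => ψ (e l)) j = 0 := by
      have hm' : m = 0 ∨ m = 1 := by omega
      rcases hm' with rfl | rfl <;> rw [fwdDiff_iter_eq_sum_shift] <;>
        refine Finset.sum_eq_zero fun l hl => ?_ <;>
        have := mem_range.1 hl
      · simp [he (j + l) (by omega)]
      · simp [pl, he (j + l + 1) (by omega), he (j + l) (by omega)]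
    rw [map_pl, map_dd] at h1
    exact h1
  have hext : ∀ i, ∃ y : ℕ → ℤ,
      (fwdDiff 1)^[D + 1] (pl^[m] y) = 0 ∧ ∀ j, j < k → y j = Y i j := fun i => by
    refine exists_extension hm (Y i) fun j hj => ?_
    refine no_wrap hm hQ hB hB0 (Y i) j
      (fun l hl => ⟨(hY (j + l) (by omega) i).1, (hY (j + l) (by omega) i).2.1⟩) ?_
    have h := hmod i (D + 1) j (by omega) hj (Y i) fun l _ => rfl
    rwa [pl_dd z, hz, pl_zero, Pi.zero_apply, mul_zero, sub_zero] at h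
  choose y hy hyY using hext
  -- the degree of z
  obtain ⟨D', hD'⟩ : ∃ D', D' = Nat.findGreatest (fun i => (fwdDiff 1)^[i] z 0 ≠ 0) D := ⟨_, rfl⟩
  have hex : ∃ i, 1 ≤ i ∧ i ≤ D ∧ (fwdDiff 1)^[i] z 0 ≠ 0 := by
    by_contra hno
    push Not at hno
    refine hzne fun j => ?_
    rw [← eq_extend hz j, extend]
    rw [Finset.sum_eq_single 0 (fun i hi h0 => ?_) (by simp)]
    · simp
    · rw [hno i (by omega) (Nat.lt_succ_iff.1 (mem_range.1 hi)), smul_zero]
  obtain ⟨i1, hi11, hi12, hi13⟩ := hex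
  have hD'1 : 1 ≤ D' := hi11.trans
    (hD' ▸ Nat.le_findGreatest (P := fun i => (fwdDiff 1)^[i] z 0 ≠ 0) hi12 hi13)
  have hD'D : D' ≤ D := hD' ▸ Nat.findGreatest_le D
  have hD'ne : (fwdDiff 1)^[D'] z 0 ≠ 0 :=
    hD' ▸ Nat.findGreatest_spec (P := fun i => (fwdDiff 1)^[i] z 0 ≠ 0) hi12 hi13
  have hD'gt : ∀ i, D' < i → i ≤ D → (fwdDiff 1)^[i] z 0 = 0 := fun i h1 h2 =>
    not_not.1 (Nat.findGreatest_is_greatest (P := fun i => (fwdDiff 1)^[i] z 0 ≠ 0) (hD' ▸ h1) h2)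
  have hzD : (fwdDiff 1)^[D' + 1] z = 0 := eq_zero_of_dd (D := D)
    (by rw [← Function.iterate_add_apply]
        exact dd_eq_zero_of_le (by omega) hz)
    (fun i _ => by
      rw [← Function.iterate_add_apply]
      by_cases h : i + (D' + 1) ≤ D
      · exact hD'gt _ (by omega) h
      · exact congrFun (dd_eq_zero_of_le (Nat.succ_le_of_lt (Nat.lt_of_not_le h)) hz) 0)
  -- the size of the coefficient
  set u := (fwdDiff 1)^[D'] z 0
  have hu : |u| ≤ 2 ^ D * N := by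
    have h := abs_dd_pl z N D' 0 0 (fun l hl => by
      have := hzN l (by omega)
      rw [abs_le]; omega) 0 le_rfl
    simp only [Function.iterate_zero, id_eq, add_zero] at h
    exact h.trans (by gcongr; norm_num)
  have hzm : (fwdDiff 1)^[D'] (pl^[m] z) 0 = 2 ^ m * u := by
    have hm' : m = 0 ∨ m = 1 := by omega
    rcases hm' with rfl | rfl
    · simp [u]
    · rw [pl_dd z]
      have h := congrFun hzD 0
      rw [Function.iterate_succ_apply'] at h
      simp only [Function.iterate_one, pl, fwdDiff, Pi.zero_apply, u] at h ⊢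
      linarith
  obtain ⟨i0, hi0⟩ := ha u hD'ne hu
  have hDu : (E : ℤ) < |(fwdDiff 1)^[D'] (pl^[m] (y i0)) 0| := by
    obtain ⟨n, hn⟩ := hmod i0 D' 0 hD'1 (by omega) (y i0) (hyY i0)
    rw [hzm] at hn
    have := hi0 (-n)
    have e : (fwdDiff 1)^[D'] (pl^[m] (y i0)) 0 = 2 ^ m * (a i0 * u) - -n * Q := by linarith
    rwa [e]
  -- the top degree
  set S := fun i => ∃ l, (fwdDiff 1)^[i] (pl^[m] (y l)) 0 ≠ 0
  have hSD : S D' := ⟨i0, fun h => by rw [h, abs_zero] at hDu; omega⟩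
  obtain ⟨s, hs⟩ : ∃ s, s = Nat.findGreatest S D := ⟨_, rfl⟩
  have hD's : D' ≤ s := hs ▸ Nat.le_findGreatest hD'D hSD
  have hsD : s ≤ D := hs ▸ Nat.findGreatest_le D
  have hys : ∀ l, (fwdDiff 1)^[s + 1] (pl^[m] (y l)) = 0 := fun l => eq_zero_of_dd (D := D)
    (by rw [← Function.iterate_add_apply]
        exact dd_eq_zero_of_le (by omega) (hy l))
    (fun i _ => by
      rw [← Function.iterate_add_apply]
      by_cases h : i + (s + 1) ≤ D
      · by_contra hne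
        exact Nat.findGreatest_is_greatest (P := S) (n := D) (by omega) h ⟨l, hne⟩
      · exact congrFun (dd_eq_zero_of_le (Nat.succ_le_of_lt (Nat.lt_of_not_le h)) (hy l)) 0)
  have hbig : ∃ l, (E : ℤ) < |(fwdDiff 1)^[s] (pl^[m] (y l)) 0| := by
    rcases hD's.eq_or_lt with h | h
    · exact ⟨i0, h ▸ hDu⟩
    · obtain ⟨l, hl⟩ : S s := hs ▸ Nat.findGreatest_spec (P := S) hD'D hSD
      refine ⟨l, lt_of_lt_of_le (Int.ofNat_lt.2 hEQ) ?_⟩
      have hd := hmod l s 0 (by omega) (by omega) (y l) (hyY l)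
      rw [pl_dd z, dd_eq_zero_of_le (Nat.succ_le_of_lt h) hzD, pl_zero, Pi.zero_apply, mul_zero,
        sub_zero] at hd
      by_contra hlt
      exact hl (Int.eq_zero_of_abs_lt_dvd hd (not_le.1 hlt))
  obtain ⟨l, hl⟩ := hbig
  refine ⟨y, s, hD'1.trans hD's, hsD, hyY, fun h0 => quad_vanish y fun i => ?_, ?_⟩
  · subst h0
    exact hy i
  · refine lt_of_lt_of_le ?_ (quad_lower (t := m * (D + 1)) hm (hD'1.trans hD's)
      (fun h => by subst h; omega) y hys)
    have h1 : (E : ℤ) ^ 2 < ∑ i, ((fwdDiff 1)^[s] (pl^[m] (y i)) 0) ^ 2 := by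
      refine lt_of_lt_of_le ?_ (Finset.single_le_sum
        (fun i _ => sq_nonneg ((fwdDiff 1)^[s] (pl^[m] (y i)) 0)) (mem_univ l))
      rw [← sq_abs ((fwdDiff 1)^[s] (pl^[m] (y l)) 0)]
      exact pow_lt_pow_left₀ hl (Int.natCast_nonneg E) two_ne_zero
    refine lt_of_lt_of_le h1 (le_mul_of_one_le_left (le_of_lt (lt_of_le_of_lt ?_ h1)) ?_)
    · positivity
    · exact one_le_pow₀ (by norm_num)

end Vale.P057
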