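import Vale.Agent.P057.Comb.Seq

/-!
# P057: top difference of a sum of squares of polynomials with a parity defect
-/

namespace Vale.P057

open Finset Polynomial

theorem dd_eval (P : ℚ[X]) (n j : ℕ) :
    (fwdDiff 1)^[n] (fun i : ℕ => P.eval (i : ℚ)) j
      = (fwdDiff 1)^[n] P.eval (j : ℚ) := by
  simp [fwdDiff_iter_eq_sum_shift]

theorem dd_eval_zero {P : ℚ[X]} {n : ℕ} (h : P.natDegree < n) :
    (fwdDiff 1)^[n] (fun i : ℕ => P.eval (i : ℚ)) = 0 := funext fun j => by
  rw [dd_eval, P.fwdDiff_iter_eq_zero_of_degree_lt h]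
  rfl

theorem dd_eval_top {P : ℚ[X]} {n : ℕ} (h : P.natDegree ≤ n) (j : ℕ) :
    (fwdDiff 1)^[n] (fun i : ℕ => P.eval (i : ℚ)) j = P.coeff n * n.factorial := by
  rw [dd_eval]
  rcases h.lt_or_eq with hlt | rfl
  · rw [P.fwdDiff_iter_eq_zero_of_degree_lt hlt, P.coeff_eq_zero_of_natDegree_lt hlt, zero_mul]
    rfl
  · rw [P.fwdDiff_iter_degree_eq_factorial]
    simp only [Pi.smul_apply, Pi.natCast_apply, smul_eq_mul, coeff_natDegree]

theorem exists_poly {s : ℕ} {f : ℕ → ℚ} (h : (fwdDiff 1)^[s + 1] f = 0) :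
    ∃ P : ℚ[X], P.natDegree ≤ s ∧ ∀ j : ℕ, f j = P.eval (j : ℚ) := by
  refine ⟨∑ i ∈ range (s + 1), C ((fwdDiff 1)^[i] f 0 / i.factorial) * descPochhammer ℚ i,
    natDegree_sum_le_of_forall_le _ _ fun i hi => ?_, fun j => ?_⟩
  · refine (natDegree_C_mul_le _ _).trans ?_
    rw [descPochhammer_natDegree]
    exact Nat.lt_succ_iff.1 (mem_range.1 hi)
  · rw [← eq_extend h j, extend, eval_finsetSum]
    refine Finset.sum_congr rfl fun i _ => ?_
    rw [eval_mul, eval_C, nsmul_eq_mul, Nat.cast_choose_eq_descPochhammer_div]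
    ring

/-- The alternating sequence. -/
def alt (f : ℕ → ℚ) (j : ℕ) : ℚ := (-1) ^ j * f j

theorem pl_alt (f : ℕ → ℚ) (t : ℕ) :
    pl^[t] (alt f) = fun j => (-1) ^ t * alt ((fwdDiff 1)^[t] f) j := by
  induction t with
  | zero => simp
  | succ t ih =>
    rw [Function.iterate_succ_apply', ih, Function.iterate_succ_apply']
    ext j
    simp only [pl, alt, fwdDiff, pow_succ]
    ring

theorem dd_alt_const (r : ℚ) (n : ℕ) :
    (fwdDiff 1)^[n] (alt fun _ => r) = fun j => (-2) ^ n * alt (fun _ => r) j := by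
  induction n with
  | zero => simp
  | succ n ih =>
    rw [Function.iterate_succ_apply', ih]
    ext j
    simp only [alt, fwdDiff, pow_succ]
    ring

/-- A sequence whose neighbour sum has degree at most `s` is a polynomial plus an alternation. -/
theorem exists_repr {s m : ℕ} (hm : m ≤ 1) {y : ℕ → ℚ}
    (h : (fwdDiff 1)^[s + 1] (pl^[m] y) = 0) :
    ∃ (P : ℚ[X]) (r : ℚ), P.natDegree ≤ s ∧ (m = 0 → r = 0) ∧
      ∀ j : ℕ, y j = P.eval (j : ℚ) + alt (fun _ => r) j := by
  have hm' : m = 0 ∨ m = 1 := by omega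
  rcases hm' with rfl | rfl
  · obtain ⟨P, hP, e⟩ := exists_poly (f := y) h
    exact ⟨P, 0, hP, fun _ => rfl, fun j => by simp [alt, e]⟩
  · simp only [Function.iterate_one] at h
    have hc : (fwdDiff 1)^[s + 1] (pl y) = pl ((fwdDiff 1)^[s + 1] y) := pl_dd y (s + 1) 1
    rw [hc] at h
    set c := (fwdDiff 1)^[s + 1] y
    have hcj : ∀ j, c j = alt (fun _ => c 0) j := fun j => by
      induction j with
      | zero => simp [alt]
      | succ j ih =>
        have := congrFun h j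
        simp only [pl, Pi.zero_apply] at this
        simp only [alt, pow_succ] at ih ⊢
        linarith
    set r := c 0 / (-2 : ℚ) ^ (s + 1) with hr
    have hz : (fwdDiff 1)^[s + 1] (y + alt fun _ => -r) = 0 := by
      rw [dd_add, dd_alt_const]
      ext j
      have := hcj j
      simp only [Pi.add_apply, Pi.zero_apply, alt] at this ⊢
      show c j + _ = 0
      rw [this, hr]
      field_simp
      ring
    obtain ⟨P, hP, e⟩ := exists_poly hz
    exact ⟨P, r, hP, fun h0 => absurd h0 one_ne_zero, fun j => by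
      have := e j
      simp only [Pi.add_apply, alt] at this ⊢
      linarith⟩

theorem natDegree_sum_sq {d s : ℕ} (P : Fin d → ℚ[X]) (r : Fin d → ℚ)
    (hP : ∀ i, (P i).natDegree ≤ s) : (∑ i, (P i * P i + C (r i * r i))).natDegree ≤ 2 * s :=
  natDegree_sum_le_of_forall_le _ _ fun i _ => by
    refine (natDegree_add_le _ _).trans (max_le (natDegree_mul_le.trans ?_) (by rw [natDegree_C]; omega))
    have := hP i
    omega

/-- **The top difference of the sum of squares.** -/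
theorem quad_lower {d s m t : ℕ} (hm : m ≤ 1) (hs : 1 ≤ s) (ht : m = 1 → s < t)
    (y : Fin d → ℕ → ℤ) (hy : ∀ i, (fwdDiff 1)^[s + 1] (pl^[m] (y i)) = 0) :
    2 ^ t * ∑ i, ((fwdDiff 1)^[s] (pl^[m] (y i)) 0) ^ 2 ≤
      4 ^ m * (fwdDiff 1)^[2 * s] (pl^[t] fun j => ∑ i, y i j ^ 2) 0 := by
  set φ : ℤ →+ ℚ := Int.castAddHom ℚ
  have hrep : ∀ i, ∃ (P : ℚ[X]) (r : ℚ), P.natDegree ≤ s ∧ (m = 0 → r = 0) ∧
      ∀ j : ℕ, (y i j : ℚ) = P.eval (j : ℚ) + alt (fun _ => r) j := fun i => by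
    refine exists_repr hm ?_
    have e : (fun j => φ ((fwdDiff 1)^[s + 1] (pl^[m] (y i)) j)) = 0 := funext fun j => by
      rw [hy i]; simp
    rw [show (fun j => (y i j : ℚ)) = fun j => φ (y i j) from rfl, map_pl, map_dd, e]
  choose P r hP hr hy' using hrep
  -- top differences of the summands
  have hu : ∀ i, (((fwdDiff 1)^[s] (pl^[m] (y i)) 0 : ℤ) : ℚ)
      = 2 ^ m * ((P i).coeff s * s.factorial) := fun i => by
    have e : (fun j => (y i j : ℚ))
        = (fun j : ℕ => (P i).eval (j : ℚ)) + alt fun _ => r i := funext fun j => hy' i j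
    have e2 : (((fwdDiff 1)^[s] (pl^[m] (y i)) 0 : ℤ) : ℚ)
        = (fwdDiff 1)^[s] (pl^[m] fun j => (y i j : ℚ)) 0 := by
      rw [show (fun j => (y i j : ℚ)) = fun j => φ (y i j) from rfl, map_pl, map_dd]
      rfl
    rw [e2, e, pl_add, dd_add, Pi.add_apply, pl_dd]
    have hm' : m = 0 ∨ m = 1 := by omega
    rcases hm' with rfl | rfl
    · simp [dd_eval_top (hP i), hr i rfl, dd_alt_const, alt]
    · rw [pl_dd (alt fun _ => r i) s 1, dd_alt_const]
      simp [pl, dd_eval_top (hP i), alt]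
      ring
  set G : ℚ[X] := ∑ i, (P i * P i + C (r i * r i))
  set Hp : ℚ[X] := ∑ i, C (2 * r i) * P i
  have hG : G.natDegree ≤ 2 * s := natDegree_sum_sq P r hP
  have hH : Hp.natDegree ≤ s := natDegree_sum_le_of_forall_le _ _ fun i _ =>
    (natDegree_C_mul_le _ _).trans (hP i)
  have hg : (fun j => ((∑ i, y i j ^ 2 : ℤ) : ℚ))
      = (fun j : ℕ => G.eval (j : ℚ)) + alt fun j : ℕ => Hp.eval (j : ℚ) := funext fun j => by
    simp only [Pi.add_apply, alt, G, Hp, eval_finsetSum, Finset.mul_sum, ← Finset.sum_add_distrib]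
    push_cast
    refine Finset.sum_congr rfl fun i _ => ?_
    rw [hy' i j]
    have h1 : ((-1 : ℚ) ^ j) * (-1) ^ j = 1 := by rw [← mul_pow]; norm_num
    simp [alt]
    linear_combination (r i) ^ 2 * h1
  have hzero : pl^[t] (alt fun j : ℕ => Hp.eval (j : ℚ)) = 0 := by
    have hm' : m = 0 ∨ m = 1 := by omega
    rcases hm' with h | h
    · have : Hp = 0 := Finset.sum_eq_zero fun i _ => by simp [hr i h]
      rw [this]
      refine Eq.trans ?_ (pl_zero t)
      exact congrArg _ (funext fun j => by simp [alt])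
    · rw [pl_alt, dd_eval_zero (lt_of_le_of_lt hH (ht h))]
      exact funext fun j => by simp [alt]
  have hcoef : G.coeff (2 * s) = ∑ i, (P i).coeff s ^ 2 := by
    simp only [G, finsetSum_coeff, coeff_add, coeff_C, if_neg (by omega : ¬ 2 * s = 0), add_zero]
    refine Finset.sum_congr rfl fun i _ => ?_
    rw [two_mul, coeff_mul_add_eq_of_natDegree_le (hP i) (hP i), sq]
  have hconst : ∀ (c : ℚ), pl^[t] (fun _ : ℕ => c) = fun _ => 2 ^ t * c := fun c => by
    induction t with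
    | zero => simp
    | succ t ih =>
      rw [Function.iterate_succ_apply']
      have : ∀ n : ℕ, pl^[n] (fun _ : ℕ => c) = fun _ => 2 ^ n * c := fun n => by
        induction n with
        | zero => simp
        | succ n ihn => rw [Function.iterate_succ_apply', ihn]; ext j; simp [pl, pow_succ]; ring
      rw [this]
      ext j; simp [pl, pow_succ]; ring
  have key : (((fwdDiff 1)^[2 * s] (pl^[t] fun j => ∑ i, y i j ^ 2) 0 : ℤ) : ℚ)
      = 2 ^ t * ((2 * s).factorial * ∑ i, (P i).coeff s ^ 2) := by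
    have e : (((fwdDiff 1)^[2 * s] (pl^[t] fun j => ∑ i, y i j ^ 2) 0 : ℤ) : ℚ)
        = (fwdDiff 1)^[2 * s] (pl^[t] fun j => ((∑ i, y i j ^ 2 : ℤ) : ℚ)) 0 := by
      rw [show (fun j => ((∑ i, y i j ^ 2 : ℤ) : ℚ)) = fun j => φ (∑ i, y i j ^ 2) from rfl,
        map_pl, map_dd]
      rfl
    rw [e, hg, pl_add, hzero, add_zero, pl_dd]
    have : (fwdDiff 1)^[2 * s] (fun j : ℕ => G.eval (j : ℚ))
        = fun _ => G.coeff (2 * s) * (2 * s).factorial := funext fun j => dd_eval_top hG j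
    rw [this, hconst, hcoef]
    ring
  suffices h : ((2 ^ t * ∑ i, ((fwdDiff 1)^[s] (pl^[m] (y i)) 0) ^ 2 : ℤ) : ℚ) ≤
      ((4 ^ m * (fwdDiff 1)^[2 * s] (pl^[t] fun j => ∑ i, y i j ^ 2) 0 : ℤ) : ℚ) by
    exact_mod_cast h
  push_cast at key ⊢
  rw [key, Finset.mul_sum, Finset.mul_sum, Finset.mul_sum, Finset.mul_sum]
  refine Finset.sum_le_sum fun i _ => ?_
  rw [hu i]
  have hfac : ((s.factorial : ℚ)) ^ 2 ≤ ((2 * s).factorial : ℚ) := by
    have h : s.factorial * s.factorial ∣ (2 * s).factorial := by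
      rw [two_mul]
      exact Nat.factorial_mul_factorial_dvd_factorial_add s s
    have := Nat.le_of_dvd (Nat.factorial_pos _) h
    rw [sq]
    exact_mod_cast this
  have h4 : ((2 : ℚ) ^ m) ^ 2 = 4 ^ m := by rw [← pow_mul, mul_comm, pow_mul]; norm_num
  have h0 : (0 : ℚ) ≤ 2 ^ t * 4 ^ m * (P i).coeff s ^ 2 := by positivity
  calc (2 : ℚ) ^ t * (2 ^ m * ((P i).coeff s * s.factorial)) ^ 2
      = 2 ^ t * 4 ^ m * (P i).coeff s ^ 2 * (s.factorial : ℚ) ^ 2 := by rw [← h4]; ring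
    _ ≤ 2 ^ t * 4 ^ m * (P i).coeff s ^ 2 * ((2 * s).factorial : ℚ) :=
        mul_le_mul_of_nonneg_left hfac h0
    _ = _ := by ring

end Vale.P057
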