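import Vale.Agent.P057.Defs

/-!
# P057: integer sequences under the operators difference and neighbour sum
-/

namespace Vale.P057

open Finset

variable {G H : Type*} [AddCommGroup G] [AddCommGroup H]

/-- The sum of neighbouring terms. -/
def pl (f : ℕ → G) (j : ℕ) : G := f (j + 1) + f j

theorem map_dd (φ : G →+ H) (f : ℕ → G) (n : ℕ) :
    (fwdDiff 1)^[n] (fun j => φ (f j)) = fun j => φ ((fwdDiff 1)^[n] f j) := by
  induction n generalizing f with
  | zero => rfl
  | succ n ih =>
    rw [Function.iterate_succ_apply, Function.iterate_succ_apply, ← ih (fwdDiff 1 f)]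
    congr 1
    ext j
    simp [fwdDiff]

theorem map_pl (φ : G →+ H) (f : ℕ → G) (t : ℕ) :
    pl^[t] (fun j => φ (f j)) = fun j => φ (pl^[t] f j) := by
  induction t generalizing f with
  | zero => rfl
  | succ t ih =>
    rw [Function.iterate_succ_apply, Function.iterate_succ_apply, ← ih (pl f)]
    congr 1
    ext j
    simp [pl]

theorem pl_dd (f : ℕ → G) (n t : ℕ) :
    (fwdDiff 1)^[n] (pl^[t] f) = pl^[t] ((fwdDiff 1)^[n] f) := by
  have h : Function.Commute (fwdDiff 1 : (ℕ → G) → ℕ → G) pl := fun g => funext fun j => by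
    simp only [fwdDiff, pl]
    abel
  exact (h.iterate_iterate n t) f

theorem dd_eq_zero_of_le {f : ℕ → G} {a b : ℕ} (hab : a ≤ b) (h : (fwdDiff 1)^[a] f = 0) :
    (fwdDiff 1)^[b] f = 0 := by
  obtain ⟨c, rfl⟩ := Nat.exists_eq_add_of_le' hab
  rw [Function.iterate_add_apply, h]
  exact funext fun j => by simp [fwdDiff_iter_eq_sum_shift]

theorem pl_zero (t : ℕ) : pl^[t] (0 : ℕ → G) = 0 := by
  induction t with
  | zero => rfl
  | succ t ih => rw [Function.iterate_succ_apply', ih]; exact funext fun j => by simp [pl]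

theorem dd_add (f g : ℕ → G) (n : ℕ) :
    (fwdDiff 1)^[n] (f + g) = (fwdDiff 1)^[n] f + (fwdDiff 1)^[n] g := fwdDiff_iter_add _ f g n

theorem pl_add (f g : ℕ → G) (t : ℕ) : pl^[t] (f + g) = pl^[t] f + pl^[t] g := by
  induction t generalizing f g with
  | zero => rfl
  | succ t ih =>
    rw [Function.iterate_succ_apply, Function.iterate_succ_apply, Function.iterate_succ_apply,
      ← ih]
    congr 1
    ext j
    simp [pl]
    abel

/-- Newton's interpolation on the first `D + 1` values. -/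
def extend (D : ℕ) (f : ℕ → G) (j : ℕ) : G :=
  ∑ i ∈ range (D + 1), j.choose i • (fwdDiff 1)^[i] f 0

theorem dd_choose_smul {i n : ℕ} (h : i < n) (c : G) :
    (fwdDiff 1)^[n] (fun j : ℕ => j.choose i • c) = 0 := by
  have h0 : (fwdDiff 1)^[i + 1] (fun j : ℕ => ((j.choose i : ℕ) : ℤ)) = 0 := by
    rw [Function.iterate_succ_apply']
    have := fwdDiff_iter_choose 0 i
    rw [add_zero] at this
    rw [this]
    ext j
    simp [fwdDiff]
  have e : (fun j : ℕ => j.choose i • c) =
      fun j => (zmultiplesHom G c) ((j.choose i : ℕ) : ℤ) := funext fun j => by simp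
  rw [e, map_dd, dd_eq_zero_of_le h h0]
  exact funext fun j => by simp

theorem dd_extend (D : ℕ) (f : ℕ → G) : (fwdDiff 1)^[D + 1] (extend D f) = 0 := by
  have e : extend D f =
      ∑ i ∈ range (D + 1), fun j : ℕ => j.choose i • (fwdDiff 1)^[i] f 0 :=
    funext fun j => (Finset.sum_apply j _
      (fun (i : ℕ) (j : ℕ) => j.choose i • (fwdDiff 1)^[i] f 0)).symm
  rw [e, fwdDiff_iter_finsetSum]
  exact Finset.sum_eq_zero fun i hi => dd_choose_smul (mem_range.1 hi) _

theorem extend_eq {D k : ℕ} {f : ℕ → G}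
    (h : ∀ i, i + (D + 1) < k → (fwdDiff 1)^[D + 1] f i = 0) {j : ℕ} (hj : j < k) :
    extend D f j = f j := by
  have hN := shift_eq_sum_fwdDiff_iter (1 : ℕ) f j 0
  simp only [zero_add, smul_eq_mul, mul_one] at hN
  have hz : ∀ i, D < i → i ≤ j → (fwdDiff 1)^[i] f 0 = 0 := fun i h1 h2 => by
    obtain ⟨c, rfl⟩ := Nat.exists_eq_add_of_le' (Nat.succ_le_of_lt h1)
    rw [Function.iterate_add_apply, fwdDiff_iter_eq_sum_shift]
    exact Finset.sum_eq_zero fun l hl => by
      have := mem_range.1 hl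
      rw [h (0 + l • 1) (by simp; omega), smul_zero]
  rw [hN, extend]
  rcases le_total D j with hDj | hDj
  · exact Finset.sum_subset (range_subset_range.2 (by omega)) fun i hi hi' => by
      rw [mem_range] at hi hi'
      rw [hz i (by omega) (by omega), smul_zero]
  · exact (Finset.sum_subset (range_subset_range.2 (by omega)) fun i hi hi' => by
      rw [mem_range] at hi hi'
      rw [Nat.choose_eq_zero_of_lt (by omega), zero_smul]).symm

theorem eq_extend {D : ℕ} {f : ℕ → G} (h : (fwdDiff 1)^[D + 1] f = 0) (j : ℕ) :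
    extend D f j = f j :=
  extend_eq (k := j + 1) (fun i _ => congrFun h i) (Nat.lt_succ_self j)

theorem eq_zero_of_dd {D : ℕ} {f : ℕ → G} (h : (fwdDiff 1)^[D + 1] f = 0)
    (h0 : ∀ i, i ≤ D → (fwdDiff 1)^[i] f 0 = 0) : f = 0 := funext fun j => by
  rw [← eq_extend h j, extend]
  exact Finset.sum_eq_zero fun i hi => by
    rw [h0 i (Nat.lt_succ_iff.1 (mem_range.1 hi)), smul_zero]

theorem abs_step (f : ℕ → ℤ) (M : ℤ) (len : ℕ) (h : ∀ j, j ≤ len + 1 → |f j| ≤ M) :
    (∀ j, j ≤ len → |fwdDiff 1 f j| ≤ 2 * M) ∧ ∀ j, j ≤ len → |pl f j| ≤ 2 * M := by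
  constructor <;> intro j hj <;>
    · have h1 := abs_le.1 (h j (by omega))
      have h2 := abs_le.1 (h (j + 1) (by omega))
      refine abs_le.2 ⟨?_, ?_⟩ <;> simp only [fwdDiff, pl] <;> omega

theorem abs_dd_pl (f : ℕ → ℤ) (M : ℤ) (n t c : ℕ) (h : ∀ j, j ≤ n + t + c → |f j| ≤ M) :
    ∀ j, j ≤ c → |(fwdDiff 1)^[n] (pl^[t] f) j| ≤ 2 ^ (n + t) * M := by
  induction n generalizing c with
  | zero =>
    induction t generalizing c with
    | zero => intro j hj; simpa using h j (by omega)
    | succ t ih =>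
      intro j hj
      have := (abs_step (pl^[t] f) (2 ^ (0 + t) * M) c fun i hi =>
        ih (c + 1) (fun l hl => h l (by omega)) i hi).2 j hj
      simp only [Function.iterate_zero, id_eq] at this ⊢
      rw [Function.iterate_succ_apply']
      calc _ ≤ 2 * (2 ^ (0 + t) * M) := this
        _ = 2 ^ (0 + (t + 1)) * M := by ring
  | succ n ih =>
    intro j hj
    have := (abs_step ((fwdDiff 1)^[n] (pl^[t] f)) (2 ^ (n + t) * M) c fun i hi =>
      ih (c + 1) (fun l hl => h l (by omega)) i hi).1 j hj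
    rw [Function.iterate_succ_apply']
    calc _ ≤ 2 * (2 ^ (n + t) * M) := this
      _ = 2 ^ (n + 1 + t) * M := by ring

/-- Differences of neighbour sums, with the exact `ℓ¹` norm of the operator. -/
theorem abs_dd_pl_one (f : ℕ → ℤ) (M : ℤ) (n j : ℕ)
    (h : ∀ i, i ≤ n + 1 → |f (j + i)| ≤ M) :
    |(fwdDiff 1)^[n] (pl f) j| ≤ 2 * (n.choose (n / 2) : ℤ) * M := by
  let b : ℕ → ℤ := fun i => (-1) ^ (n - i) * (n.choose i : ℤ)
  let F : ℕ → ℤ := fun i => f (j + i)
  have e1 : (fwdDiff 1)^[n] (pl f) j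
      = b 0 * F 0 + ∑ i ∈ range (n + 1), (b (i + 1) + b i) * F (i + 1) := by
    rw [fwdDiff_iter_eq_sum_shift]
    have hb : b (n + 1) = 0 := by simp [b]
    calc _ = ∑ i ∈ range (n + 1), (b i * F (i + 1) + b i * F i) :=
          Finset.sum_congr rfl fun i _ => by simp [b, F, pl, mul_add, add_assoc]
      _ = (∑ i ∈ range (n + 1), b i * F (i + 1)) +
            (∑ i ∈ range (n + 1), b i * F i) := Finset.sum_add_distrib
      _ = _ := by
          have h2 := Finset.sum_range_succ' (fun i => b i * F i) (n + 1)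
          rw [Finset.sum_range_succ, hb, zero_mul, add_zero] at h2
          rw [h2]
          simp only [add_mul, Finset.sum_add_distrib]
          ring
  have hc : ∀ i, i ≤ n →
      |b (i + 1) + b i| = |(n.choose (i + 1) : ℤ) - n.choose i| := by
    intro i hi
    rcases hi.lt_or_eq with hi | rfl
    · have e : n - i = n - (i + 1) + 1 := by omega
      simp only [b, e, pow_succ]
      rcases neg_one_pow_eq_or ℤ (n - (i + 1)) with h | h <;> rw [h]
      · congr 1; ring
      · rw [← abs_neg]; congr 1; ring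
    · simp [b]
  have hsum : |b 0| + ∑ i ∈ range (n + 1), |b (i + 1) + b i| = 2 * (n.choose (n / 2) : ℤ) := by
    rw [Finset.sum_congr rfl fun i hi => hc i (Nat.lt_succ_iff.1 (mem_range.1 hi)),
      ← Finset.sum_range_add_sum_Ico _ (show n / 2 ≤ n + 1 by omega)]
    have hb0 : |b 0| = 1 := by
      simp only [b, Nat.choose_zero_right, Nat.cast_one, mul_one, abs_neg_one_pow]
    have h1 : ∑ i ∈ range (n / 2), |(n.choose (i + 1) : ℤ) - n.choose i|
        = (n.choose (n / 2) : ℤ) - 1 := by
      rw [Finset.sum_congr rfl fun i hi => abs_of_nonneg (sub_nonneg.2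
        (Int.ofNat_le.2 (Nat.choose_le_succ_of_lt_half_left (mem_range.1 hi)))),
        Finset.sum_range_sub (fun i => (n.choose i : ℤ))]
      simp
    have h2 : ∑ i ∈ Ico (n / 2) (n + 1), |(n.choose (i + 1) : ℤ) - n.choose i|
        = (n.choose (n / 2) : ℤ) := by
      have hdec : ∀ i ∈ Ico (n / 2) (n + 1), |(n.choose (i + 1) : ℤ) - n.choose i|
          = (n.choose i : ℤ) - n.choose (i + 1) := fun i hi => by
        rw [abs_sub_comm]
        refine abs_of_nonneg (sub_nonneg.2 (Int.ofNat_le.2 ?_))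
        have hi' := mem_Ico.1 hi
        have e := Nat.choose_succ_right_eq n i
        refine Nat.le_of_mul_le_mul_right (c := i + 1) ?_ (Nat.succ_pos i)
        rw [e]
        exact Nat.mul_le_mul_left _ (by omega)
      rw [Finset.sum_congr rfl hdec, Finset.sum_Ico_eq_sub _ (show n / 2 ≤ n + 1 by omega),
        Finset.sum_range_sub' (fun i => (n.choose i : ℤ)),
        Finset.sum_range_sub' (fun i => (n.choose i : ℤ))]
      simp
    rw [hb0, h1, h2]
    ring
  rw [e1, ← hsum]
  refine (abs_add_le _ _).trans ?_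
  rw [add_mul, Finset.sum_mul]
  refine add_le_add ?_ ((Finset.abs_sum_le_sum_abs _ _).trans (Finset.sum_le_sum fun i hi => ?_))
  · rw [abs_mul]
    exact mul_le_mul_of_nonneg_left (h 0 (Nat.zero_le _)) (abs_nonneg _)
  · rw [abs_mul]
    exact mul_le_mul_of_nonneg_left (h (i + 1) (by have := mem_range.1 hi; omega)) (abs_nonneg _)

end Vale.P057
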