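import Vale.Agent.P057.Comb.Core
import Vale.Agent.P057.Comb.Choose

/-!
# P057: one step of the tower
-/

namespace Vale.P057

open Finset

theorem boxH_pos (D m : ℕ) : 0 < boxH D m := by
  unfold boxH
  split_ifs
  · positivity
  · exact Nat.choose_pos (Nat.div_le_self _ _)

theorem dd_sub_const (f : ℕ → ℤ) (c : ℤ) (n t j : ℕ) :
    (fwdDiff 1)^[n + 1] (pl^[t] fun i => f i - c) j = (fwdDiff 1)^[n + 1] (pl^[t] f) j := by
  rw [show (fun i => f i - c) = f + fun _ => -c from funext fun i => sub_eq_add_neg _ _, pl_add,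
    dd_add, dd_pl_const, add_zero]

theorem dd_congr {G : Type*} [AddCommGroup G] {f g : ℕ → G} {n j : ℕ}
    (h : ∀ i, i ≤ n → f (j + i) = g (j + i)) : (fwdDiff 1)^[n] f j = (fwdDiff 1)^[n] g j := by
  rw [fwdDiff_iter_eq_sum_shift, fwdDiff_iter_eq_sum_shift]
  refine Finset.sum_congr rfl fun l hl => ?_
  rw [smul_eq_mul, mul_one, h l (Nat.lt_succ_iff.1 (mem_range.1 hl))]

/-- Squares of the coordinates of a kept point. -/
def normSq {d Q : ℕ} (x : Fin d → ZMod Q) : ℕ := ∑ i, (x i).val ^ 2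

/-- The set of the step has no progression. -/
theorem kept_avoids {d D k m B Q E N w w' : ℕ} [NeZero Q] (hm : m ≤ 1) (hB : boxH D m * B ≤ Q)
    (hB0 : 0 < B) (hk : D + 1 + m ≤ k) (hk' : 2 * D + m * (D + 1) < k) (hEQ : E < Q)
    {a φ : Fin d → ZMod Q} (ha : Good m D N Q E fun i => ((a i).val : ℤ)) {A' : Finset ℕ} {t : ℤ}
    (hww : w' * 2 ^ (2 * D + 1) ≤ w) (hwE : 2 ^ (3 * D + 3) * w ≤ E ^ 2)
    (hin : ∀ b : ℕ → ℤ, (∀ j, j < k → ∃ a ∈ A', b j = (a : ℤ)) →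
      (m = 0 → ∀ j, j + (2 * D + 1) < k → (fwdDiff 1)^[2 * D + 1] b j = 0) →
      ∀ j, j < k → b j = b 0)
    {S : Finset (Fin d → ZMod Q)}
    (hS : ∀ x ∈ S, (∀ i, (x i).val < B) ∧ InWin A' w w' t (normSq x)) :
    Avoids D k ((range N).filter fun z : ℕ => (fun i => φ i + a i * (z : ZMod Q)) ∈ S) := by
  classical
  intro z hz hzA
  by_contra hne
  let X : ℕ → Fin d → ZMod Q := fun j i => φ i + a i * (z j : ZMod Q)
  have hX : ∀ j, j < k → (0 ≤ z j ∧ z j < N) ∧ X j ∈ S := fun j hj => by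
    obtain ⟨n, hn, e⟩ := hzA j hj
    obtain ⟨h1, h2⟩ := mem_filter.1 hn
    refine ⟨by have := mem_range.1 h1; omega, ?_⟩
    simp only [X, e, Int.cast_natCast]
    exact h2
  obtain ⟨y, s, hs1, hsD, hyY, hvan, hbig⟩ := core (a := fun i => ((a i).val : ℤ))
    (φ := fun i => ((φ i).val : ℤ)) hm (NeZero.pos Q) hB hB0 hk hEQ ha hz hne
    (fun j hj => (hX j hj).1) (fun i j => ((X j i).val : ℤ)) fun j hj i => by
      refine ⟨Int.natCast_nonneg _, Int.ofNat_lt.2 ((hS _ (hX j hj).2).1 i), ?_⟩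
      rw [← ZMod.intCast_zmod_eq_zero_iff_dvd]
      push_cast [ZMod.natCast_zmod_val]
      simp [X]
  set g : ℕ → ℤ := fun j => ∑ i, y i j ^ 2 with hg
  have hgval : ∀ j, j < k → g j = (normSq (X j) : ℤ) := fun j hj => by
    simp only [g, normSq]
    push_cast
    exact Finset.sum_congr rfl fun i _ => by rw [hyY i j hj]
  let b : ℕ → ℤ := fun j =>
    if hj : j < k then ((hS _ (hX j hj).2).2.choose : ℤ) else 0
  have hb : ∀ j, j < k →
      (∃ a ∈ A', b j = (a : ℤ)) ∧ 0 ≤ g j - t - w * b j ∧ g j - t - w * b j < w' := by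
    intro j hj
    obtain ⟨h1, h2, h3⟩ := (hS _ (hX j hj).2).2.choose_spec
    have e : b j = ((hS _ (hX j hj).2).2.choose : ℤ) := dif_pos hj
    refine ⟨⟨_, h1, e⟩, ?_⟩
    rw [e, hgval j hj]
    push_cast at h2 h3
    exact ⟨h2, h3⟩
  have hw'w : w' ≤ w := (Nat.le_mul_of_pos_right w' (by positivity)).trans hww
  have hconst : ∀ j, j < k → b j = b 0 := by
    refine hin b (fun j hj => (hb j hj).1) fun h0 j hj => ?_
    have hg0 := congrFun (hvan h0) j
    let res : ℕ → ℤ := fun l => g l - t - w * b l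
    have e : g = (fun l => AddMonoidHom.mulLeft (w : ℤ) (b l)) + res + fun _ => t :=
      funext fun l => by simp [res]
    have hres : |(fwdDiff 1)^[2 * D + 1] res j| ≤ 2 ^ (2 * D + 1) * ((w' : ℤ) - 1) := by
      have h := abs_dd_pl (fun i => res (j + i)) ((w' : ℤ) - 1) (2 * D + 1) 0 0 (fun i hi => by
        have := (hb (j + i) (by omega)).2
        simp only [res]
        rw [abs_le]
        omega) 0 le_rfl
      simp only [Function.iterate_zero, id_eq, add_zero] at h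
      have e := fwdDiff_iter_comp_add (1 : ℕ) res j (2 * D + 1) 0
      rw [zero_add] at e
      rw [← e]
      simpa [add_comm] using h
    have hz0 : (fwdDiff 1)^[2 * D + 1] (fun _ : ℕ => t) = 0 := dd_pl_const t (2 * D) 0
    have e2 : (fwdDiff 1)^[2 * D + 1] g j
        = w * (fwdDiff 1)^[2 * D + 1] b j + (fwdDiff 1)^[2 * D + 1] res j := by
      rw [e, dd_add, dd_add, hz0, add_zero, map_dd]
      rfl
    rw [Pi.zero_apply] at hg0
    rw [e2] at hg0
    by_contra hne0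
    have h1 : (1 : ℤ) ≤ |(fwdDiff 1)^[2 * D + 1] b j| := Int.one_le_abs hne0
    have h2 : (w : ℤ) ≤ |(fwdDiff 1)^[2 * D + 1] res j| := by
      rw [eq_neg_of_add_eq_zero_right hg0, abs_neg, abs_mul, Nat.abs_cast]
      exact le_mul_of_one_le_right (Int.natCast_nonneg w) h1
    have h3 : ((w' * 2 ^ (2 * D + 1) : ℕ) : ℤ) ≤ w := Int.ofNat_le.2 hww
    push_cast at h3
    have h4 : (0 : ℤ) < 2 ^ (2 * D + 1) := by positivity
    linarith [mul_comm ((w' : ℤ)) ((2 : ℤ) ^ (2 * D + 1))]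
  obtain ⟨n, hn⟩ : ∃ n, 2 * s = n + 1 := ⟨2 * s - 1, by omega⟩
  have hTt : m * (D + 1) ≤ D + 1 :=
    (Nat.mul_le_mul_right _ hm).trans (le_of_eq (one_mul _))
  set T := m * (D + 1) with hT
  have hup : |(fwdDiff 1)^[2 * s] (pl^[T] g) 0| ≤ 2 ^ (2 * s + T) * (w : ℤ) := by
    rw [hn, ← dd_sub_const g (t + w * b 0), ← hn]
    refine abs_dd_pl _ (w : ℤ) (2 * s) T 0 (fun j hj => ?_) 0 le_rfl
    have h := hb j (by omega)
    rw [hconst j (by omega)] at h
    rw [abs_le]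
    have : (w' : ℤ) ≤ w := Int.ofNat_le.2 hw'w
    omega
  have hfin : (4 : ℤ) ^ m * (fwdDiff 1)^[2 * s] (pl^[T] g) 0 ≤ (E : ℤ) ^ 2 := by
    have h1 : ((2 ^ (3 * D + 3) * w : ℕ) : ℤ) ≤ ((E ^ 2 : ℕ) : ℤ) := Int.ofNat_le.2 hwE
    push_cast at h1
    calc (4 : ℤ) ^ m * (fwdDiff 1)^[2 * s] (pl^[T] g) 0
        ≤ 4 ^ m * (2 ^ (2 * s + T) * (w : ℤ)) :=
          mul_le_mul_of_nonneg_left ((le_abs_self _).trans hup) (by positivity)
      _ = 2 ^ (2 * m + (2 * s + T)) * (w : ℤ) := by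
          rw [show (4 : ℤ) = 2 ^ 2 by norm_num, ← pow_mul]; ring
      _ ≤ 2 ^ (3 * D + 3) * (w : ℤ) := by
          refine mul_le_mul_of_nonneg_right (pow_le_pow_right₀ (by norm_num) ?_) (Int.natCast_nonneg w)
          rcases (show m = 0 ∨ m = 1 by omega) with h0 | h0 <;> subst h0 <;> omega
      _ ≤ _ := h1
  exact absurd hbig (not_lt.2 hfin)

theorem half_pow {h Q d B : ℕ} (hh0 : 0 < h) (hQ : 0 < Q) (hd : 0 < d) (hx : 2 * h * d ≤ Q)
    (hBdef : B = Q / h) : (1 / 2 : ℝ) * ((Q : ℝ) / h) ^ d ≤ (B : ℝ) ^ d := by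
  have hhR : (0 : ℝ) < h := Nat.cast_pos.2 hh0
  have hQR' : (0 : ℝ) < Q := Nat.cast_pos.2 hQ
  have hx1 : (2 : ℝ) * h * d ≤ Q := by
    exact_mod_cast hx
  have hB1 : (Q : ℝ) / h * (1 + -(h / Q)) ≤ B := by
    have h1 : Q < h * (B + 1) := hBdef ▸ Nat.lt_mul_div_succ Q hh0
    have h1' : (Q : ℝ) ≤ h * (B + 1) := by exact_mod_cast h1.le
    rw [div_mul_eq_mul_div, div_le_iff₀ hhR]
    have e : (Q : ℝ) * (1 + -(h / Q)) = Q - h := by field_simp; ring
    rw [e]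
    linarith
  have hd1 : (1 : ℝ) ≤ d := by exact_mod_cast hd
  have hsmall : (h : ℝ) / Q ≤ 1 / 2 := by
    rw [div_le_iff₀ hQR']; nlinarith
  calc (1 / 2 : ℝ) * ((Q : ℝ) / h) ^ d
      ≤ (1 + (d : ℝ) * -(h / Q)) * ((Q : ℝ) / h) ^ d := by
        refine mul_le_mul_of_nonneg_right ?_ (by positivity)
        have : (d : ℝ) * (h / Q) ≤ 1 / 2 := by
          rw [← mul_div_assoc, div_le_iff₀ hQR']; linarith
        linarith
    _ ≤ (1 + -(h / Q : ℝ)) ^ d * ((Q : ℝ) / h) ^ d := by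
        refine mul_le_mul_of_nonneg_right (one_add_mul_le_pow ?_ d) (by positivity)
        linarith
    _ = ((Q : ℝ) / h * (1 + -(h / Q))) ^ d := by rw [mul_pow ((Q : ℝ) / h)]; ring
    _ ≤ (B : ℝ) ^ d := by
        refine pow_le_pow_left₀ (mul_nonneg (by positivity) ?_) hB1 d
        linarith

theorem real_bound {N B Q M' C K a' a d : ℕ} {h : ℝ} (hQ : 0 < Q) (hM : 0 < M')
    (hhalf : (1 / 2 : ℝ) * ((Q : ℝ) / h) ^ d ≤ (B : ℝ) ^ d)
    (hcount : N * B ^ d * a' ≤ C * M' * Q ^ d * a) (hCK : 2 * C ≤ K) :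
    (N : ℝ) * h⁻¹ ^ d * a' / (M' : ℝ) ≤ (K : ℝ) * a := by
  have hQd : (0 : ℝ) < (Q : ℝ) ^ d := by positivity
  rw [div_le_iff₀ (Nat.cast_pos.2 hM)]
  refine le_of_mul_le_mul_right ?_ hQd
  have hcR : ((N * B ^ d * a' : ℕ) : ℝ) ≤ ((C * M' * Q ^ d * a : ℕ) : ℝ) := Nat.cast_le.2 hcount
  push_cast at hcR
  have hK : ((2 * C : ℕ) : ℝ) ≤ (K : ℝ) := Nat.cast_le.2 hCK
  push_cast at hK
  calc (N : ℝ) * h⁻¹ ^ d * a' * (Q : ℝ) ^ d
      = 2 * ((N : ℝ) * ((1 / 2) * ((Q : ℝ) / h) ^ d) * a') := by rw [div_pow, inv_pow]; ring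
    _ ≤ 2 * ((N : ℝ) * (B : ℝ) ^ d * a') := by
        refine mul_le_mul_of_nonneg_left ?_ zero_le_two
        exact mul_le_mul_of_nonneg_right (mul_le_mul_of_nonneg_left hhalf (Nat.cast_nonneg N))
          (Nat.cast_nonneg a')
    _ ≤ 2 * ((C : ℝ) * M' * (Q : ℝ) ^ d * a) := mul_le_mul_of_nonneg_left hcR zero_le_two
    _ = 2 * (C : ℝ) * ((a : ℝ) * M' * (Q : ℝ) ^ d) := by ring
    _ ≤ (K : ℝ) * ((a : ℝ) * M' * (Q : ℝ) ^ d) := mul_le_mul_of_nonneg_right hK (by positivity)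
    _ = (K : ℝ) * a * M' * (Q : ℝ) ^ d := by ring

theorem box_card {d Q B : ℕ} [NeZero Q] (hBQ : B ≤ Q) :
    B ^ d ≤ (Fintype.piFinset fun _ : Fin d => univ.filter fun x : ZMod Q => x.val < B).card := by
  rw [Fintype.card_piFinset, prod_const, card_univ, Fintype.card_fin]
  refine Nat.pow_le_pow_left ?_ d
  calc B = (range B).card := (card_range B).symm
    _ ≤ _ := by
      refine card_le_card_of_injOn (fun n : ℕ => (n : ZMod Q)) (fun n hn => ?_)
        fun n hn n' hn' e => ?_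
      · have := mem_range.1 (mem_coe.1 hn)
        exact mem_coe.2 (mem_filter.2 ⟨mem_univ _, by
          rwa [ZMod.val_natCast, Nat.mod_eq_of_lt (lt_of_lt_of_le this hBQ)]⟩)
      · have h1 := mem_range.1 (mem_coe.1 hn)
        have h2 := mem_range.1 (mem_coe.1 hn')
        have := congrArg ZMod.val e
        rwa [ZMod.val_natCast, ZMod.val_natCast, Nat.mod_eq_of_lt (by omega),
          Nat.mod_eq_of_lt (by omega)] at this

/-- **The step, with the property of the inner set as a parameter.** -/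
theorem step_main (D k m : ℕ) (hm : m ≤ 1) (hD : 0 < D) (hk : 2 * D + m * (D + 1) < k)
    (Inner : Finset ℕ → Prop)
    (hin : ∀ A', Inner A' → ∀ b : ℕ → ℤ, (∀ j, j < k → ∃ a ∈ A', b j = (a : ℤ)) →
      (m = 0 → ∀ j, j + (2 * D + 1) < k → (fwdDiff 1)^[2 * D + 1] b j = 0) →
      ∀ j, j < k → b j = b 0) :
    ∃ K : ℕ, 0 < K ∧ StepProp (Avoids D k) Inner (boxH D m : ℝ) K := by
  classical
  refine ⟨2 ^ (5 * D + 12), by positivity, fun N d R hN hd hR A' hA' hI => ?_⟩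
  set K := 2 ^ (5 * D + 12) with hK
  set h := boxH D m with hh
  have hh0 : 0 < h := boxH_pos D m
  have hR0 : 0 < R := Nat.pos_of_ne_zero fun e => by
    subst e; rw [zero_pow hd.ne'] at hR; omega
  obtain ⟨Q, hQle, hQp⟩ :=
    Nat.exists_infinite_primes (R * 2 ^ (3 * D + 7) + 2 * h * d + 2 * (2 ^ D * N) + 3)
  have : Fact Q.Prime := ⟨hQp⟩
  have : NeZero Q := ⟨hQp.ne_zero⟩
  set E := Q / R with hE
  set B := Q / h with hBdef
  set w := E ^ 2 / 2 ^ (3 * D + 3) with hw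
  set w' := w / 2 ^ (2 * D + 1) with hw'
  set M' := d * K * R ^ 2 with hM'
  have hER : E * R ≤ Q := Nat.div_mul_le_self Q R
  have hE1 : 2 ^ (3 * D + 7) ≤ E := by
    rw [hE, Nat.le_div_iff_mul_le hR0]
    have : 2 ^ (3 * D + 7) * R ≤ R * 2 ^ (3 * D + 7) := le_of_eq (mul_comm _ _)
    omega
  have hE0 : 0 < E := lt_of_lt_of_le (by positivity) hE1
  have hR1 : 1 < R := by
    by_contra h'
    have e : R = 1 := by omega
    have h3 : 0 < 2 * (K * N) * 3 ^ d := by positivity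
    rw [e, one_pow] at hR
    omega
  have hEQ : E < Q := Nat.div_lt_self hQp.pos hR1
  have hc : ((2 ^ m : ℕ) : ZMod Q) ≠ 0 := fun e => by
    rw [ZMod.natCast_eq_zero_iff] at e
    have := Nat.le_of_dvd (by positivity) e
    have : 2 ^ m ≤ 2 := le_of_le_of_eq (Nat.pow_le_pow_right (by norm_num) hm) (pow_one 2)
    omega
  obtain ⟨a, ha⟩ := exists_multipliers (d := d) (U := 2 ^ D * N) (c := 2 ^ m) hE0 hER
    (lt_of_le_of_lt (Nat.mul_le_mul_right _ (Nat.mul_le_mul_left _ (Nat.mul_le_mul_right _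
      (hK ▸ Nat.pow_le_pow_right (by norm_num) (by omega))))) hR) (by omega) hc
  have hgood : Good m D N Q E fun i => ((a i).val : ℤ) := fun u hu hU => by
    obtain ⟨i, hi⟩ := ha u hu (by push_cast; exact hU)
    exact ⟨i, fun n => by simpa using hi n⟩
  -- sizes
  have hB0 : 0 < B := by
    rw [hBdef]
    refine Nat.div_pos ?_ hh0
    have : h ≤ 2 * h * d := by nlinarith
    omega
  have hBQ : h * B ≤ Q := Nat.mul_div_le Q h
  have hBQ' : B ≤ Q := Nat.div_le_self _ _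
  have hQR : Q ≤ 2 * R * E := by
    have h1 := Nat.div_add_mod Q R
    have h2 := Nat.mod_lt Q hR0
    have h3 : R ≤ R * E := Nat.le_mul_of_pos_right _ hE0
    rw [hE] at h3 ⊢
    nlinarith
  have hp : 0 < 2 ^ (3 * D + 3) := by positivity
  have hw1 : E ^ 2 ≤ 2 ^ (3 * D + 4) * w := by
    have h1 := Nat.div_add_mod (E ^ 2) (2 ^ (3 * D + 3))
    have h2 := Nat.mod_lt (E ^ 2) hp
    rw [← hw] at h1
    have h4 : 2 ^ (3 * D + 3) ≤ E ^ 2 := (Nat.pow_le_pow_right (by norm_num) (by omega)).trans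
      (hE1.trans (Nat.le_self_pow two_ne_zero E))
    have h5 : 1 ≤ w := by
      rw [hw]; exact Nat.div_pos h4 hp
    have h6 : 2 ^ (3 * D + 3) ≤ 2 ^ (3 * D + 3) * w := Nat.le_mul_of_pos_right _ h5
    have e : 2 ^ (3 * D + 4) * w = 2 * (2 ^ (3 * D + 3) * w) := by ring
    omega
  have hw2 : 2 ^ (2 * D + 1) ≤ w := by
    by_contra hlt
    have h1 : 2 ^ (3 * D + 4) * w < 2 ^ (3 * D + 4) * 2 ^ (2 * D + 1) :=
      Nat.mul_lt_mul_of_pos_left (not_le.1 hlt) (by positivity)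
    have h2 : (2 ^ (3 * D + 7)) ^ 2 ≤ E ^ 2 := Nat.pow_le_pow_left hE1 2
    rw [← pow_mul] at h2
    have h3 : 2 ^ (3 * D + 4) * 2 ^ (2 * D + 1) ≤ 2 ^ ((3 * D + 7) * 2) := by
      rw [← pow_add]
      exact Nat.pow_le_pow_right (by norm_num) (by omega)
    omega
  have hwE : 2 ^ (3 * D + 3) * w ≤ E ^ 2 := Nat.mul_div_le _ _
  have hww : w' * 2 ^ (2 * D + 1) ≤ w := Nat.div_mul_le_self _ _
  have hw3 : w ≤ 2 ^ (2 * D + 2) * w' := by
    have hp' : 0 < 2 ^ (2 * D + 1) := by positivity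
    have h1 := Nat.div_add_mod w (2 ^ (2 * D + 1))
    have h2 := Nat.mod_lt w hp'
    rw [← hw'] at h1
    have h4 : 2 ^ (2 * D + 1) ≤ 2 ^ (2 * D + 1) * w' :=
      Nat.le_mul_of_pos_right _ (by rw [hw']; exact Nat.div_pos hw2 hp')
    have e : 2 ^ (2 * D + 2) * w' = 2 * (2 ^ (2 * D + 1) * w') := by ring
    omega
  have hG : d * B ^ 2 ≤ M' * w := by
    have h1 : B ^ 2 ≤ (2 * R * E) ^ 2 := Nat.pow_le_pow_left (hBQ'.trans hQR) 2
    have hK' : 4 * 2 ^ (3 * D + 4) ≤ K := by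
      rw [hK, show (4 : ℕ) = 2 ^ 2 by norm_num, ← pow_add]
      exact Nat.pow_le_pow_right (by norm_num) (by omega)
    calc d * B ^ 2 ≤ d * (2 * R * E) ^ 2 := Nat.mul_le_mul_left d h1
      _ = d * 4 * R ^ 2 * E ^ 2 := by ring
      _ ≤ d * 4 * R ^ 2 * (2 ^ (3 * D + 4) * w) := Nat.mul_le_mul_left _ hw1
      _ = d * (4 * 2 ^ (3 * D + 4)) * R ^ 2 * w := by ring
      _ ≤ _ := by rw [hM']; gcongr
  have hw0 : 0 < w := lt_of_lt_of_le (by positivity) hw2
  have hMw : 0 < M' * w := Nat.mul_pos (by rw [hM']; positivity) hw0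
  -- the box
  let box : Finset (Fin d → ZMod Q) :=
    Fintype.piFinset fun _ => univ.filter fun x : ZMod Q => x.val < B
  have hbox : B ^ d ≤ box.card := box_card hBQ'
  have hval : ∀ x ∈ box, ∀ i, (x i).val < B := fun x hx i =>
    (mem_filter.1 (Fintype.mem_piFinset.1 hx i)).2
  have : Nonempty (Fin d) := ⟨⟨0, hd⟩⟩
  obtain ⟨t, T, hTbox, hTwin, hTcard⟩ := exists_shift box normSq (G := d * B ^ 2) A' hA'
    (fun x hx => by
      calc normSq x < ∑ _i : Fin d, B ^ 2 := Finset.sum_lt_sum_of_nonempty univ_nonempty fun i _ =>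
            Nat.pow_lt_pow_left (hval x hx i) two_ne_zero
        _ = _ := by simp)
    hG (show w' ≤ w from Nat.div_le_self _ _) hMw
  obtain ⟨φ, hφ⟩ := exists_translate T a N
  refine ⟨(range N).filter fun z : ℕ => (fun i => φ i + a i * (z : ZMod Q)) ∈ T,
    filter_subset _ _, kept_avoids hm hBQ hB0 (by
      have : m * 1 ≤ m * (D + 1) := Nat.mul_le_mul_left _ (by omega)
      omega) hk hEQ hgood hww hwE (hin A' hI)
    (fun x hx => ⟨hval x (hTbox hx), hTwin x hx⟩), ?_⟩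
  set A := (range N).filter fun z : ℕ => (fun i => φ i + a i * (z : ZMod Q)) ∈ T
  -- the count
  have hcount : N * B ^ d * A'.card ≤ 2 ^ (2 * D + 3) * M' * Q ^ d * A.card := by
    refine Nat.le_of_mul_le_mul_right (c := w) ?_ hw0
    calc N * B ^ d * A'.card * w ≤ N * box.card * A'.card * (2 ^ (2 * D + 2) * w') := by gcongr
      _ = 2 ^ (2 * D + 2) * N * (box.card * (A'.card * w')) := by ring
      _ ≤ 2 ^ (2 * D + 2) * N * (2 * (M' * w) * T.card) := Nat.mul_le_mul_left _ hTcard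
      _ = 2 ^ (2 * D + 3) * M' * (N * T.card) * w := by ring
      _ ≤ 2 ^ (2 * D + 3) * M' * (Q ^ d * A.card) * w := by gcongr
      _ = _ := by ring
  have hhalf := half_pow (d := d) hh0 hQp.pos hd (show 2 * h * d ≤ Q by omega) hBdef
  exact real_bound (C := 2 ^ (2 * D + 3)) hQp.pos (Nat.pos_of_mul_pos_right hMw) hhalf hcount
    (by rw [hK, show 2 * 2 ^ (2 * D + 3) = 2 ^ (2 * D + 4) by ring]
        exact Nat.pow_le_pow_right (by norm_num) (by omega))

/-- **An outer level.** -/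
theorem stepProp_outer (D k : ℕ) (hD : 0 < D) (hk : 2 * D < k) :
    ∃ K : ℕ, 0 < K ∧ StepProp (Avoids D k) (Avoids (2 * D) k) ((2 : ℝ) ^ D) K := by
  obtain ⟨K, hK, h⟩ := step_main D k 0 (Nat.zero_le _) hD (by omega) (Avoids (2 * D) k)
    fun A' hA' b hb hd j hj => by
      have e : ∀ i, i < k → extend (2 * D) b i = b i := fun i hi => extend_eq (hd rfl) hi
      have hc := hA' (extend (2 * D) b) (dd_extend _ _) (fun i hi => by rw [e i hi]; exact hb i hi) j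
      rwa [e j hj, e 0 (by omega)] at hc
  exact ⟨K, hK, by simpa [boxH] using h⟩

/-- **The innermost level, with parity defects.** -/
theorem stepProp_last (D k : ℕ) (hD : 0 < D) (hk : 3 * D + 2 ≤ k) :
    ∃ K : ℕ, 0 < K ∧ StepProp (Avoids D k) (fun A => A ⊆ {0})
      (((D + 1).choose ((D + 1) / 2) : ℕ) : ℝ) K := by
  obtain ⟨K, hK, h⟩ := step_main D k 1 le_rfl hD (by omega) (fun A => A ⊆ {0})
    fun A' hA' b hb _ j hj => by
      obtain ⟨a, ha, e⟩ := hb j hj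
      obtain ⟨a0, ha0, e0⟩ := hb 0 (by omega)
      rw [e, e0, mem_singleton.1 (hA' ha), mem_singleton.1 (hA' ha0)]
  exact ⟨K, hK, by simpa [boxH] using h⟩

end Vale.P057
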